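import Vale.Agent.P366Y.Sk3
import Vale.Agent.P366Y.C.Cap

/-!
# P366Y: the ceiling is not reached
-/

namespace Vale.Agent.P366Y

theorem cap_ : CAP := fun n B k₀ h hn B1 h0 => by
  obtain ⟨r₀, r0, H⟩ := C.capb n B k₀ h hn B1 h0
  exact ⟨r₀, r0, fun r hr => H r hr.1 hr.2⟩

end Vale.Agent.P366Y
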