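import Vale.Agent.P366Y.Sk3
import Vale.Agent.P366Y.C.All

/-!
# P366Y: row HIC
-/

open Set Metric Filter Topology
open Vale.Agent.P366.Stmt Vale.Agent.P366Z

noncomputable section

namespace Vale.Agent.P366Y

namespace HicX

variable {n : ℕ} {g : Field n}

/-- the covariant Hessian of a jet -/
def hs (g : Field n) (w : E n × Vc n × Mx n) (i j : Fin n) : ℝ :=
  w.2.2 i j - ∑ k, chr g k i j w.1 * w.2.1 k

/-- the curvature as a function of the jet -/
def ps (g : Field n) (c : ℝ) (w : E n × Vc n × Mx n) : ℝ :=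
  scal g w.1 + ((c * ∑ i, ∑ j, up g i j w.1 * hs g w i j) ^ 2 -
      c ^ 2 * ∑ i, ∑ j, ∑ k, ∑ l, up g i k w.1 * up g j l w.1 * hs g w i j * hs g w k l) /
        (1 + c ^ 2 * sq g w.1 w.2.1) -
    2 * c * (c * ∑ i, ∑ j, C.rc g w.1 i j * rs g w.1 w.2.1 i * rs g w.1 w.2.1 j) /
      (1 + c ^ 2 * sq g w.1 w.2.1) -
    2 * c ^ 2 * (c ^ 2 * ((∑ i, ∑ j, up g i j w.1 * hs g w i j) *
      (∑ i, ∑ j, hs g w i j * rs g w.1 w.2.1 i * rs g w.1 w.2.1 j) - ∑ i, ∑ j, hs g w i j *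
        (∑ a, ∑ b, up g i a w.1 * hs g w a b * rs g w.1 w.2.1 b) * rs g w.1 w.2.1 j)) /
      (1 + c ^ 2 * sq g w.1 w.2.1) ^ 2

theorem cont (hg : Met g) (c : ℝ) : Continuous (ps g c) := by
  have h1 := fun i j => (hg.sm_up i j).cont
  have h2 := fun k i j => (hg.sm_chr k i j).cont
  have h3 := hg.sm_scal.cont
  have h4 := fun i j => ((C.rci n g (fun _ => 0) hg contDiff_const).1.sm i j).cont
  have h5 : ∀ i j, Continuous fun w => hs g w i j := fun i j => by
    unfold hs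
    fun_prop
  have h6 : ∀ i, Continuous fun w : E n × Vc n × Mx n => rs g w.1 w.2.1 i := fun i => by
    unfold rs
    fun_prop
  have h7 : Continuous fun w : E n × Vc n × Mx n => 1 + c ^ 2 * sq g w.1 w.2.1 := by
    unfold sq
    fun_prop
  have h8 : ∀ w : E n × Vc n × Mx n, 1 + c ^ 2 * sq g w.1 w.2.1 ≠ 0 := fun w =>
    (add_pos_of_pos_of_nonneg one_pos (mul_nonneg (sq_nonneg c) (hg.up_nonneg _ _))).ne'
  exact ((h3.comp continuous_fst).add (Continuous.div (by fun_prop) h7 h8) |>.sub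
    (Continuous.div (by fun_prop) h7 h8)).sub
    (Continuous.div (by fun_prop) (h7.pow 2) fun w => pow_ne_zero 2 (h8 w))

theorem eq_ps (hg : Met g) {c : ℝ} (hc : 0 < c) {f w : E n → ℝ} (hf : Smooth f) {x : E n}
    (hw : w =ᶠ[𝓝 x] fun _ => c) : scal (gb g w f) x = ps g c (x, D1 f x, D2 f x) := by
  rw [scal_of_ev (g' := C.gb g (fun _ => c) f) (hw.mono fun y hy => by
    funext i j
    simp only [gb, C.gb, hy]), C.rb_ n g _ f hg contDiff_const hf fun _ => hc]
  have h1 : ∀ i, gr g (fun _ => c) i = fun _ => 0 := fun i => by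
    funext y
    simp [gr, pd_const]
  have h2 : ∀ i j, hess g (fun _ => c) x i j = 0 := fun i j => by
    simp [hess, pd_const, show (pd j fun _ : E n => c) = fun _ => 0 from funext (pd_const c j)]
  have h3 := C.GbH.ww_sq hg (fun _ => c) f x
  rw [C.rb, show C.ww g (fun _ => c) f x ^ 4 = (C.ww g (fun _ => c) f x ^ 2) ^ 2 by ring, h3,
    hg.lap_eq_tr (hf.c2 x), hg.lap_eq_tr contDiffAt_const]
  simp only [ip_const_left, C.b2, h1, h2, tr, mul_zero, zero_mul, Finset.sum_const_zero, add_zero,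
    sub_zero, zero_add, ne_eq, OfNat.ofNat_ne_zero, not_false_eq_true, zero_pow, sub_self]
  rfl

/-- the bound -/
theorem bd (hg : Met g) {c : ℝ} (hc : 0 < c) (ρ H : ℝ) : ∃ C, ∀ (f w : E n → ℝ) (x : E n),
    Smooth f → ‖x‖ ≤ ρ → ‖D1 f x‖ ≤ H → ‖D2 f x‖ ≤ H → (w =ᶠ[𝓝 x] fun _ => c) →
      |scal (gb g w f) x| ≤ C := by
  obtain ⟨C, hC⟩ := ((isCompact_closedBall (0 : E n) ρ).prod ((isCompact_closedBall (0 : Vc n)
    H).prod (isCompact_closedBall (0 : Mx n) H))).exists_bound_of_continuousOn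
    (cont hg c).continuousOn
  exact ⟨C, fun f w x hf h1 h2 h3 hw => (eq_ps hg hc hf hw).symm ▸ hC _
    ⟨mem_closedBall_zero_iff.2 h1, mem_closedBall_zero_iff.2 h2, mem_closedBall_zero_iff.2 h3⟩⟩

end HicX

/-- **row HIC** -/
theorem hic : HIC := by
  intro n X P hX hP σ₀ A cY H hA
  have hg : Met X.g := hX.met.cf hX.smU fun x => lt_of_lt_of_le (by norm_num) (hX.Ub x).1
  obtain ⟨C, hC⟩ := HicX.bd hg two_pos X.ρ H
  obtain ⟨S, hS⟩ := (isCompact_closedBall (0 : E n) X.ρ).exists_bound_of_continuousOn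
    hg.sm_scal.cont.continuousOn
  refine ⟨|σ₀| + |S| + |C| + 1, by positivity, fun um hum ψ f u x hf hu h1 h2 hx h3 => ?_⟩
  have e0 := hP.η0
  have k1 := (abs_le.1 (hC f (fun y => P.φ (u y)) x hf hx h1 h2
    ((hu.cont.continuousAt.eventually (lt_mem_nhds h3)).mono fun y hy =>
      hP.φhi _ (show 1 + P.η ≤ u y by linarith [e0.2])))).1
  have k2 : rc X.ρ x = 1 := Real.smoothTransition.one_of_one_le (by
    have := norm_nonneg x
    rw [le_div_iff₀ (by linarith)]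
    nlinarith)
  have k3 : 0 ≤ rc (X.R + 7) x := Real.smoothTransition.nonneg _
  have k4 : rc (X.R + 7) x ≤ 1 := Real.smoothTransition.le_one _
  have k5 : rc (X.R + 7) x * σ₀ ≤ |σ₀| :=
    (mul_le_mul_of_nonneg_left (le_abs_self _) k3).trans (mul_le_of_le_one_left (abs_nonneg _) k4)
  have k6 : (1 - rc (X.R + 7) x) * scal X.g x ≤ |S| :=
    (mul_le_mul_of_nonneg_left ((le_abs_self _).trans ((hS x (mem_closedBall_zero_iff.2 hx)).trans
      (le_abs_self _))) (sub_nonneg.2 k4)).trans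
      (mul_le_of_le_one_left (abs_nonneg _) (sub_le_self _ k3))
  have k7 := mul_nonneg hA (Real.smoothTransition.nonneg (4 * f x ^ 2 / P.F₀ ^ 2 - 1))
  rw [Lam, k2, hP.β0 _ (show 1 - P.η ≤ u x by linarith [e0.1]),
    Real.smoothTransition.one_of_one_le (x := u x - _) (by simp only; linarith)]
  simp only
  linarith [le_abs_self C]

end Vale.Agent.P366Y
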