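import Vale.Agent.P366Y.Sk3
import Vale.Agent.P366Y.J.Ga
import Vale.Agent.P366Y.F.Chg

/-!
# P366Y, glue: the cut function and the signs of the prescribed curvature (rows GBF, LAM)
-/

open Filter Topology Set
open Vale.Agent.P366.Stmt Vale.Agent.P366Z

noncomputable section

namespace Vale.Agent.P366Y

namespace LamH

variable {n : ℕ} {X : Dat n} {P : Pa} {f u : E n → ℝ} {x : E n}

theorem lap_met {g g' : Field n} (e : ∀ᶠ y in 𝓝 x, g y = g' y) : lap g u x = lap g' u x := by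
  have h : ∀ i, (fun y => dens g y * gr g u i y) =ᶠ[𝓝 x] fun y => dens g' y * gr g' u i y :=
    fun i => e.mono fun y h => by simp only [dens, gr, up, mat, h]
  unfold lap dv
  rw [Finset.sum_congr rfl fun i _ => pd_congr (h i) i]
  simp only [dens, mat, e.self_of_nhds]

theorem fh_zero (hX : X.Ok) (hx : X.R + 6 ≤ ‖x‖) : fh X f x = 0 := by
  rw [fh, J.rc_zero (by linarith [hX.R1]) (by linarith), zero_mul]

theorem pd_fh (hX : X.Ok) (hf : Smooth f) (hx : X.R + 6 ≤ ‖x‖) (i : Fin n) :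
    pd i (fh X f) x = 0 := by
  have h0 : rc (X.R + 5) x = 0 := J.rc_zero (by linarith [hX.R1]) (by linarith)
  have h1 : IsLocalMin (rc (X.R + 5)) x := .of_forall fun y => h0.trans_le (J.rc_mem _ y).1
  refine (pd_mul ((J.sm_rc _).diff x) (hf.diff x) i).trans ?_
  rw [h0, pd_eq ((J.sm_rc _).diff x), h1.fderiv_eq_zero]
  simp

theorem wb (hP : P.Ok) : F.Wb P.φ := by
  have l1 := hP.pos.1
  refine ⟨P.φ₀, hP.φ0.1, 4 * P.lam, fun z => ⟨(hP.φb z).1, by linarith [(hP.φb z).2],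
    (hP.φd z).1, ?_⟩⟩
  rcases le_or_gt z 2 with h | h
  · have h1 : F.Tr z ≤ 2 := by
      have := Real.smoothTransition.nonneg (4 * z - 1)
      have := Real.smoothTransition.le_one (4 * z - 1)
      unfold F.Tr
      nlinarith
    have h2 := mul_le_mul_of_nonneg_left (hP.φb z).2 (zero_le_one.trans l1)
    linarith [mul_le_mul_of_nonneg_right h1 (hP.φd z).1, (hP.φd z).2]
  · have e : P.φ =ᶠ[𝓝 z] fun _ => 2 :=
      (lt_mem_nhds h).mono fun y k => hP.φhi y (by linarith [hP.η0.2])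
    rw [e.deriv_eq, deriv_const, mul_zero]
    linarith

theorem flo_nonneg {C cY : ℝ} {ψ : E n → ℝ} (hX : X.Ok) (hP : P.Ok) (hc : 0 ≤ cY)
    (h : ∀ t ≥ (0 : ℝ), J.Ga P C (ψ x) t) : 0 ≤ flo X P cY ψ f x := by
  have t0 := (J.mg hX).ip_nonneg f x
  have h1 := (h _ t0).io1
  have h2 := mul_le_mul_of_nonneg_right (J.rc_mem (X.R + 7) x).2 (mul_nonneg (h _ t0).Gs0 t0)
  have h3 : 0 < 1 / (1 + 4 * P.L * ip X.g f f x) := by
    have := hP.pos.2.1
    positivity
  have h4 : 0 ≤ 1 - rc (X.R + 7) x * P.Gs (ψ x) (ip X.g f f x) * ip X.g f f x := by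
    unfold J.io at h1
    linarith
  unfold flo
  positivity

end LamH

open LamH in
/-- **row GBF** -/
theorem gbf_of (hF : F.FARL) : GBF := by
  intro n X P f u hX hP hf hu
  refine ⟨wb hP, ContDiff.mul (J.sm_rc _) hf, ContDiff.mul (J.sm_rc _) (hP.smφ.comp hu), ?_,
    fun x hx => ?_⟩
  · funext x i j
    rcases le_total ‖x‖ (X.R + 6) with h | h
    · simp only [gb, wp, J.rc_one (show 0 ≤ X.R + 6 by linarith [hX.R1]) h, one_mul]
    · simp only [gb, pd_fh hX hf h, mul_zero]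
  · have h1 := (hF n X P.φ (fh X f) u u hX hu (fun y => fh_zero hX) x hx).2.2.2.2.1
    have h2 : ∀ᶠ y in 𝓝 x, X.R + 6 < ‖y‖ :=
      continuous_norm.continuousAt.eventually (lt_mem_nhds (by linarith [hX.Rρ]))
    rw [cl, h1, zero_mul, add_zero, lap_met (g' := X.g) (h2.mono fun y k => ?_)]
    funext i j
    simp only [gb, pd_fh hX hf k.le, mul_zero, add_zero]

open LamH in
/-- **row LAM** -/
theorem lam_of (hG : J.GA) (hF : F.FARL) : LAM := by
  obtain ⟨C, -, hG⟩ := hG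
  refine fun n X CK hX => ⟨C, fun P hP c A ψ f c1 c2 c3 hψ _ x z => ?_⟩
  have f0 : 0 ≤ flo X P c.cY ψ (fh X f) x :=
    flo_nonneg hX hP.ok c1 (hG P hP.ok hP.big _ (hψ.bd x))
  have r0 := (J.rc_mem X.ρ x).1
  have η0 := hP.ok.η0
  have F0 := hP.ok.pos.2.2.2.2.1
  have ρ0 : 0 ≤ X.ρ := by linarith [hX.R1, hX.Rρ]
  have st : |fh X f x| ≤ P.F₀ / 2 →
      Real.smoothTransition (4 * fh X f x ^ 2 / P.F₀ ^ 2 - 1) = 0 := fun h =>
    Real.smoothTransition.zero_of_nonpos (by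
      rw [sub_nonpos, div_le_one (by positivity)]
      nlinarith [abs_le.1 h])
  have far : X.ρ ≤ ‖x‖ → Lam X P c ψ (fh X f) x z = rc X.ρ x *
      (P.βf z * flo X P c.cY ψ (fh X f) x - c.A' * Real.smoothTransition (z - c.um)) := fun h => by
    rw [Lam, (hF n X P.φ (fh X f) ψ ψ hX hψ.sm (fun y => fh_zero hX) x h).2.2.2.1,
      J.rc_zero (r := X.R + 7) (by linarith [hX.R1]) (by linarith [hX.Rρ]),
      st (by rw [fh_zero hX (by linarith [hX.Rρ]), abs_zero]; linarith)]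
    ring
  have β0 := mul_nonneg (hP.ok.βb z).1 f0
  refine ⟨fun h hz => ?_, fun h hz => ?_, fun h => ?_, fun h hz => ?_⟩
  · rw [far h, Real.smoothTransition.zero_of_nonpos (by linarith), mul_zero, sub_zero]
    exact mul_nonneg r0 β0
  · rw [far h, hP.ok.β0 z (by linarith), Real.smoothTransition.one_of_one_le (by linarith)]
    exact mul_nonpos_of_nonneg_of_nonpos r0 (by linarith)
  · rw [far (by linarith), J.rc_zero ρ0 h, zero_mul]
  · rw [Lam, st h, mul_zero, zero_mul, sub_zero, le_add_iff_nonneg_right]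
    rcases le_total ‖x‖ (X.ρ + 1) with k | k
    · rw [Real.smoothTransition.zero_of_nonpos (sub_nonpos.2 (hz k)), mul_zero, sub_zero]
      exact mul_nonneg r0 β0
    · rw [J.rc_zero ρ0 k, zero_mul]

theorem gbf : GBF := gbf_of F.farl

theorem lam_ : LAM := lam_of J.ga F.farl

end Vale.Agent.P366Y
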