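import Vale.Agent.P366Y.Sk3
import Vale.Agent.P366Y.T.QeA
import Vale.Agent.P366Y.J.Coef
import Vale.Agent.P366Y.J.Ga
import Vale.Agent.P366Y.F.Chg

/-!
# P366Y: the nonlocal coefficients
-/

open MeasureTheory Metric Filter Topology Set
open scoped ContDiff ENNReal
open Vale.Agent.P366.Stmt Vale.Agent.P366Z

noncomputable section

namespace Vale.Agent.P366Y

namespace NlX

variable {n : ℕ} {V W : Type} [NormedAddCommGroup V] [NormedSpace ℝ V] [NormedAddCommGroup W]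
  [NormedSpace ℝ W] {ρ θ M M' : ℝ}

theorem mono {w : (E n → ℝ) → E n → W} (h : F.Nl ρ θ M w) (e : M ≤ M') : F.Nl ρ θ M' w :=
  ⟨h.sm, fun u hu => Qe.mono (h.ho u hu) e, h.ct⟩

theorem congr {w w' : (E n → ℝ) → E n → W} (h : F.Nl ρ θ M w)
    (e : ∀ u, Continuous u → w' u = w u) : F.Nl ρ θ M w' :=
  ⟨fun u hu => e u hu ▸ h.sm u hu, fun u hu => e u hu ▸ h.ho u hu, fun a a0 =>
    (h.ct a a0).imp fun _ k => ⟨k.1, fun u u' hu hu' => e u hu ▸ e u' hu' ▸ k.2 u u' hu hu'⟩⟩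

omit [NormedSpace ℝ V] [NormedSpace ℝ W] in
theorem pair {a : E n → V} {b : E n → W} (ha : Ho θ M a) (hb : Ho θ M b) :
    Ho θ M fun x => (a x, b x) :=
  ⟨fun x => norm_prod_le_iff.2 ⟨ha.1 x, hb.1 x⟩, fun x y => norm_prod_le_iff.2 ⟨ha.2 x y, hb.2 x y⟩⟩

theorem comp {Φ : E n × V → W} {S : Set V} (hS : IsCompact S) (hc : Convex ℝ S) {r : ℝ}
    (hΦ : ∀ q : E n × V, q.2 ∈ S → ContDiffAt ℝ ∞ Φ q) (h0 : ∀ q : E n × V, r ≤ ‖q.1‖ → Φ q = 0)
    (hθ : θ ∈ Ioo (0 : ℝ) 1) {w : (E n → ℝ) → E n → V} (hw : F.Nl ρ θ M w)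
    (hm : ∀ u, Continuous u → ∀ x, w u x ∈ S) : ∃ A, F.Nl ρ θ A fun u x => Φ (x, w u x) := by
  obtain ⟨Λ, Λ0, h⟩ := J.Coef.lipS hS hc hΦ h0
  have M0 := Qe.nn (hw.ho _ continuous_zero)
  refine ⟨Λ * (2 + M), fun u hu => contDiff_iff_contDiffAt.2 fun x => ContDiffAt.comp
    (f := fun x => (x, w u x)) x (hΦ _ (hm u hu x)) (contDiff_id.prodMk (hw.sm u hu)).contDiffAt,
    fun u hu => ⟨fun x => (h _ (hm u hu x)).1.trans (le_mul_of_one_le_right Λ0 (by linarith)),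
      fun x y => ?_⟩, fun e he => ?_⟩
  · have p := Qe.rp x y θ
    rw [mul_assoc]
    rcases le_total ‖x - y‖ 1 with k | k
    · refine ((h (x, _) (hm u hu x)).2 (y, _) (hm u hu y)).trans
        (mul_le_mul_of_nonneg_left (norm_prod_le_iff.2 ⟨?_, ?_⟩) Λ0)
      · have := Real.self_le_rpow_of_le_one (norm_nonneg _) k hθ.2.le
        show ‖x - y‖ ≤ _
        nlinarith
      · exact ((hw.ho u hu).2 x y).trans (mul_le_mul_of_nonneg_right (by linarith) p)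
    · have k1 := Real.one_le_rpow k hθ.1.le
      refine (norm_sub_le_of_le (h (x, _) (hm u hu x)).1 (h (y, _) (hm u hu y)).1).trans ?_
      rw [← mul_two]
      exact mul_le_mul_of_nonneg_left (by nlinarith) Λ0
  · obtain ⟨d, d0, hd⟩ := hw.ct (e / (Λ + 1)) (by positivity)
    refine ⟨d, d0, fun u u' hu hu' k x => ((h (x, _) (hm u hu x)).2 (x, _) (hm u' hu' x)).trans ?_⟩
    have k1 : ‖(x, w u x) - (x, w u' x)‖ ≤ e / (Λ + 1) :=
      norm_prod_le_iff.2 ⟨by simp; positivity, hd u u' hu hu' k x⟩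
    refine (mul_le_mul (le_add_of_nonneg_right zero_le_one) k1 (norm_nonneg _)
      (by positivity)).trans_eq (mul_div_cancel₀ _ (by positivity))

/-- the jets -/
abbrev Jq (n : ℕ) := E n × ℝ × ℝ × Vc n × Mx n

/-- the first derivatives after the cut -/
def f1 (r : ℝ) (q : Jq n) : Vc n := fun i => pd i (rc r) q.1 * q.2.2.1 + rc r q.1 * q.2.2.2.1 i

/-- the second derivatives after the cut -/
def f2 (r : ℝ) (q : Jq n) : Mx n := fun i j => rc r q.1 * q.2.2.2.2 i j +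
  pd i (rc r) q.1 * q.2.2.2.1 j + pd j (rc r) q.1 * q.2.2.2.1 i + q.2.2.1 * D2 (rc r) q.1 i j

/-- the coefficients as a function of the values -/
def l3 (X : Dat n) (P : Pa) (c : Cu) (x : E n) (y z t : ℝ) : Fin 3 → ℝ :=
  ![rc (X.R + 7) x * c.σ₀ + (1 - rc (X.R + 7) x) * scal X.g x -
      c.A * Real.smoothTransition (4 * z ^ 2 / P.F₀ ^ 2 - 1),
    rc X.ρ x * (c.cY * (1 + ((1 - rc (X.R + 7) x * P.Gs y t * t) *
      (1 + (rc (X.R + 6) x * P.φ₀) ^ 2 * t))⁻¹)) +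
      c.A * Real.smoothTransition (4 * z ^ 2 / P.F₀ ^ 2 - 1),
    -(rc X.ρ x * c.A')]

theorem far {r : ℝ} (hr : 0 ≤ r) {x : E n} (hx : r + 2 ≤ ‖x‖) :
    rc r x = 0 ∧ (∀ i, pd i (rc r) x = 0) ∧ ∀ i j, D2 (rc r) x i j = 0 := by
  have ev : rc r =ᶠ[𝓝 x] fun _ => 0 := by
    filter_upwards [(isOpen_lt continuous_const continuous_norm).mem_nhds
      (show r + 1 < ‖x‖ by linarith)] with y hy using J.rc_zero hr (le_of_lt hy)
  have evp : ∀ i, pd i (rc r) =ᶠ[𝓝 x] fun _ => 0 := fun i =>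
    (pd_congr_ev ev i).trans (Eventually.of_forall fun y => pd_const 0 i y)
  exact ⟨ev.eq_of_nhds, fun i => (evp i).eq_of_nhds,
    fun i j => (pd_congr (evp j) i).trans (pd_const 0 i x)⟩

theorem c_pd (r : ℝ) (i : Fin n) : ContDiff ℝ ∞ fun q : Jq n => pd i (rc r) q.1 :=
  ContDiff.comp ((J.sm_rc r).pd i) contDiff_fst

theorem c_f1 (r : ℝ) : ContDiff ℝ ∞ (f1 (n := n) r) :=
  contDiff_pi.2 fun i => ((c_pd r i).mul contDiff_snd.snd.fst).add
    ((J.Coef.c_rc contDiff_fst r).mul (contDiff_pi.1 contDiff_snd.snd.snd.fst i))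

theorem c_f2 (r : ℝ) : ContDiff ℝ ∞ (f2 (n := n) r) :=
  contDiff_pi.2 fun i => contDiff_pi.2 fun j => ((((J.Coef.c_rc contDiff_fst r).mul
    (contDiff_pi.1 (contDiff_pi.1 contDiff_snd.snd.snd.snd i) j)).add
    ((c_pd r i).mul (contDiff_pi.1 contDiff_snd.snd.snd.fst j))).add
    ((c_pd r j).mul (contDiff_pi.1 contDiff_snd.snd.snd.fst i))).add
    (contDiff_snd.snd.fst.mul (ContDiff.comp (((J.sm_rc r).pd j).pd i) contDiff_fst))

theorem c_l3 {X : Dat n} {P : Pa} {C : ℝ} (hX : X.Ok) (c : Cu) {z t : Jq n → ℝ} {q : Jq n}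
    (hz : ContDiff ℝ ∞ z) (ht : ContDiff ℝ ∞ t) (t0 : 0 ≤ t q) (L0 : 0 ≤ P.L)
    (hG : J.Ga P C q.2.1 (t q)) :
    ContDiffAt ℝ ∞ (fun q => l3 X P c q.1 q.2.1 (z q) (t q)) q := by
  have hr : ∀ r, ContDiff ℝ ∞ fun q : Jq n => rc r q.1 := J.Coef.c_rc contDiff_fst
  have h1 : ContDiff ℝ ∞ fun q => c.A * Real.smoothTransition (4 * z q ^ 2 / P.F₀ ^ 2 - 1) :=
    contDiff_const.mul (Real.smoothTransition.contDiff.comp
      (((contDiff_const.mul (hz.pow 2)).div_const _).sub contDiff_const))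
  have h2 : 0 < 1 - rc (X.R + 7) q.1 * P.Gs q.2.1 (t q) * t q := by
    have k1 := lt_of_lt_of_le (by positivity) hG.io1
    have k2 := mul_le_mul_of_nonneg_right (J.rc_mem (X.R + 7) q.1).2 (mul_nonneg t0 hG.Gs0)
    unfold J.io at k1
    linarith
  refine contDiffAt_pi.2 fun i => ?_
  fin_cases i
  · exact ((((hr _).mul contDiff_const).add ((contDiff_const.sub (hr _)).mul
      (ContDiff.comp (J.mg hX).sm_scal contDiff_fst))).sub h1).contDiffAt
  · exact ((hr _).contDiffAt.mul (contDiffAt_const.mul (contDiffAt_const.add (ContDiffAt.inv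
      ((contDiffAt_const.sub (((hr _).contDiffAt.mul (J.Coef.c_two contDiff_snd.fst ht hG.sGs)).mul
        ht.contDiffAt)).mul (contDiff_const.add ((((hr _).mul contDiff_const).pow 2).mul
        ht)).contDiffAt) (mul_pos h2 (by positivity)).ne')))).add h1.contDiffAt
  · exact ((hr _).mul contDiff_const).neg.contDiffAt

end NlX

open NlX in
/-- **NL** -/
theorem nl : NL := by
  intro n X CK hX
  obtain ⟨C, -, hG⟩ := J.ga
  refine ⟨C, fun P hP θ hθ K A ψ f h1 h2 => ?_⟩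
  have R1 := hX.R1
  have Rρ := hX.Rρ
  have hw : F.Nl X.ρ θ (max (2 * 2 + A) K) fun h x => (ψ h x, f h x, D1 (f h) x, D2 (f h) x) := by
    refine ⟨fun h hh => ?_, fun h hh => ?_, fun e he => (h2 e he).imp fun d k =>
      ⟨k.1, fun h h' hh hh' k1 x => ?_⟩⟩
    · obtain ⟨a, b, -⟩ := h1 h hh
      exact ContDiff.prodMk a.sm (ContDiff.prodMk b (ContDiff.prodMk (contDiff_pi.2 b.pd)
        (contDiff_pi.2 fun i => contDiff_pi.2 fun j => (b.pd j).pd i)))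
    · obtain ⟨a, -, -, b⟩ := h1 h hh
      refine pair (Qe.mono (Qe.of_lip hθ ((norm_nonneg _).trans (a.lip 0)) (fun x => ?_)
        fun x y => convex_univ.norm_image_sub_le_of_norm_fderiv_le (𝕜 := ℝ)
          (fun z _ => a.sm.diff z) (fun z _ => a.lip z) trivial trivial) (le_max_left _ _))
        (Qe.mono (pair b.1 (pair b.2.1 b.2.2)) (le_max_right _ _))
      exact abs_le.2 ⟨by linarith [(a.bd x).1, hP.ok.φ0.1], (a.bd x).2⟩
    · obtain ⟨a1, a2, a3, a4⟩ := k.2 h h' hh hh' k1 x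
      exact norm_prod_le_iff.2 ⟨a1, norm_prod_le_iff.2 ⟨a2, norm_prod_le_iff.2 ⟨a3, a4⟩⟩⟩
  have hS := (isCompact_Icc (a := P.φ₀) (b := 2)).prod
    (isCompact_closedBall (0 : ℝ × Vc n × Mx n) K)
  have hc := (convex_Icc P.φ₀ 2).prod (convex_closedBall (0 : ℝ × Vc n × Mx n) K)
  have hm : ∀ h, Continuous h → ∀ x, (ψ h x, f h x, D1 (f h) x, D2 (f h) x) ∈
      Icc P.φ₀ 2 ×ˢ closedBall (0 : ℝ × Vc n × Mx n) K := fun h hh x =>
    let ⟨a, _, _, b⟩ := h1 h hh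
    ⟨a.bd x, mem_closedBall_zero_iff.2 ((pair b.1 (pair b.2.1 b.2.2)).1 x)⟩
  have r0 : 0 ≤ X.R + 5 := by linarith
  have e1 : ∀ h, Continuous h → D1 (fh X (f h)) =
      fun x => f1 (X.R + 5) (x, ψ h x, f h x, D1 (f h) x, D2 (f h) x) := fun h hh =>
    funext fun x => funext fun i => pd_mul ((J.sm_rc _).diff x) ((h1 h hh).2.1.diff x) i
  obtain ⟨A1, k1⟩ := comp hS hc (fun _ _ => (c_f1 (X.R + 5)).contDiffAt) (fun q hq => by
    obtain ⟨a, b, -⟩ := far r0 hq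
    funext i
    simp [f1, a, b]) hθ hw hm
  obtain ⟨A2, k2⟩ := comp hS hc (fun _ _ => (c_f2 (X.R + 5)).contDiffAt) (fun q hq => by
    obtain ⟨a, b, c⟩ := far r0 hq
    funext i j
    simp [f2, a, b, c]) hθ hw hm
  replace k1 := congr k1 e1
  replace k2 := congr (w' := fun h => D2 (fh X (f h))) k2 fun h hh =>
    funext fun x => funext fun i => funext fun j => F.Chg.d2_mul (J.sm_rc _) (h1 h hh).2.1 x i j
  refine ⟨max A1 A2, fun h hh x => ⟨((k1.ho h hh).1 x).trans (le_max_left _ _),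
    ((k2.ho h hh).1 x).trans (le_max_right _ _)⟩, fun c => ?_⟩
  obtain ⟨A3, k3⟩ := comp (r := X.ρ + 1) (Φ := fun q : Jq n => l3 X P c q.1 q.2.1
    (rc (X.R + 5) q.1 * q.2.2.1) (sq X.g q.1 (f1 (X.R + 5) q))) hS hc (fun q hq =>
      c_l3 hX c ((J.Coef.c_rc contDiff_fst _).mul contDiff_snd.snd.fst)
        (J.Coef.c_sq (J.mg hX) contDiff_fst (c_f1 _)) ((J.mg hX).up_nonneg _ _)
        (zero_le_one.trans hP.ok.pos.2.1)
        (hG P hP.ok hP.big _ hq.1 _ ((J.mg hX).up_nonneg _ _))) (fun q hq => by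
    have a1 := (F.farl n X id (fun _ => 0) (fun _ => 0) (fun _ => 0) hX contDiff_const
      (fun _ _ => rfl) q.1 (by linarith)).2.2.2.1
    have a2 : rc (X.R + 7) q.1 = 0 := J.rc_zero (by linarith) (by linarith)
    have a3 : rc (X.R + 5) q.1 = 0 := J.rc_zero r0 (by linarith)
    have a4 : rc X.ρ q.1 = 0 := J.rc_zero (by linarith) hq
    have a5 : Real.smoothTransition (-1) = 0 := Real.smoothTransition.zero_of_nonpos (by norm_num)
    simp [l3, a1, a2, a3, a4, a5]) hθ hw hm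
  refine ⟨max (max A1 A2) A3, mono k1 (le_max_of_le_left (le_max_left _ _)),
    mono k2 (le_max_of_le_left (le_max_right _ _)), mono (congr k3 fun h hh => funext fun x => ?_)
      (le_max_right _ _)⟩
  rw [← congrFun (e1 h hh) x]
  rfl

end Vale.Agent.P366Y
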