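import Vale.Agent.P366Y.Sk2
import Vale.Agent.P366Y.J.Defs

/-!
# P366Y: the smoothed warping function
-/

open MeasureTheory Metric Filter Topology Set
open scoped ContDiff ENNReal
open Vale.Agent.P366.Stmt Vale.Agent.P366Z

noncomputable section

namespace Vale.Agent.P366Y

namespace PsiX

theorem phi_lip {P : Pa} (hP : P.Ok) (a b : ℝ) : |P.φ a - P.φ b| ≤ 2 * P.lam * |a - b| :=
  convex_univ.norm_image_sub_le_of_norm_deriv_le (𝕜 := ℝ) (C := 2 * P.lam)
    (fun z _ => hP.smφ.differentiable (by simp) z) (fun z _ => by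
      rw [Real.norm_of_nonneg (hP.φd z).1]
      nlinarith [(hP.φd z).2, (hP.φb z).2, hP.pos.1]) trivial trivial

theorem phi_mono {P : Pa} (hP : P.Ok) : Monotone P.φ :=
  monotone_of_deriv_nonneg (hP.smφ.differentiable (by simp)) fun z => (hP.φd z).1

theorem rc_bd (n : ℕ) {r : ℝ} (hr : 0 ≤ r) :
    ∃ c ≥ (0 : ℝ), ∀ x : E n, ‖fderiv ℝ (rc r) x‖ ≤ c := by
  have h1 : HasCompactSupport (rc r : E n → ℝ) :=
    .intro (isCompact_closedBall 0 (r + 1)) fun x hx =>
      J.rc_zero hr (le_of_not_ge fun k => hx (mem_closedBall_zero_iff.2 k))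
  obtain ⟨c, hc⟩ := (h1.fderiv ℝ).exists_bound_of_continuous
    (ContDiff.continuous_fderiv (J.sm_rc r) (by simp))
  exact ⟨c, (norm_nonneg _).trans (hc 0), hc⟩

end PsiX

open PsiX

/-- **PSI**, with a positive constant -/
theorem psi_pos (n : ℕ) (X : Dat n) (Cm : ℝ) (hR : 1 ≤ X.R) : ∃ A₀ > (0 : ℝ), ∀ P : Pa, P.Ok →
    ∀ δ ∈ Ioc (0 : ℝ) (1 / 2), ∀ S, Mol Cm δ S → ∀ u, Continuous u →
    Ps X P (A₀ / δ) (psi X P S u) ∧ (∀ x, P.φ (u x) ≤ psi X P S u x) ∧
    (∀ x, ∀ h ≥ (0 : ℝ), ‖x‖ ≤ X.R + 4 → (∀ y ∈ ball x (2 * δ), u y ≤ u x + h) →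
      psi X P S u x ≤ P.φ (u x) + 2 * P.lam * h) ∧
    ∀ u', ∀ d ≥ (0 : ℝ), Continuous u' → (∀ y, ‖y‖ ≤ X.R + 7 → |u y - u' y| ≤ d) →
      ∀ x, |psi X P S u x - psi X P S u' x| ≤ 2 * P.lam * d := by
  have hr : 0 ≤ X.R + 4 := by linarith
  obtain ⟨c, c0, hc⟩ := rc_bd n hr
  refine ⟨2 * |Cm| + 2 * c + 1, by positivity, fun P hP δ ⟨d0, d1⟩ S hS u hu => ?_⟩
  have ct : ∀ {u : E n → ℝ}, Continuous u → Continuous fun y => P.φ (u y) := fun hu =>
    hP.smφ.continuous.comp hu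
  have up : ∀ x (b : ℝ), (∀ y ∈ ball x (2 * δ), P.φ (u y) ≤ b) → S (fun y => P.φ (u y)) x ≤ b :=
    fun x b hb => by
      have := hS.loc _ (fun _ => b) x 0 (ct hu) continuous_const fun y hy => by
        rw [add_zero]; exact hb y hy
      rwa [hS.cst, add_zero] at this
  have s2 := fun x => up x 2 fun y _ => (hP.φb _).2
  have s1 := fun x => hS.ge _ x (ct hu)
  have lo : ∀ x, P.φ (u x) ≤ psi X P S u x := fun x => by
    have := J.rc_mem (X.R + 4) x
    unfold psi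
    nlinarith [s1 x, (hP.φb (u x)).2, mul_nonneg this.1 (sub_nonneg.2 (s1 x)),
      mul_nonneg (sub_nonneg.2 this.2) (sub_nonneg.2 (hP.φb (u x)).2)]
  have l0 : 0 ≤ P.lam := zero_le_one.trans hP.pos.1
  refine ⟨⟨ContDiff.add (ContDiff.mul (J.sm_rc _) (hS.sm _ (ct hu)))
    (ContDiff.mul (contDiff_const.sub (J.sm_rc _)) contDiff_const),
    fun x => ⟨(hP.φb _).1.trans (lo x), ?_⟩, fun x hx => ?_, fun x => ?_⟩, lo,
    fun x h h0 hx hy => ?_, fun u' d hd hu' hy x => ?_⟩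
  · unfold psi
    nlinarith [mul_nonneg (J.rc_mem (X.R + 4) x).1 (sub_nonneg.2 (s2 x))]
  · rw [psi, J.rc_zero hr (by linarith)]
    ring
  · have a1 := (ContDiff.differentiable (J.sm_rc (n := n) (X.R + 4)) (by simp) x).hasFDerivAt
    have a2 := (ContDiff.differentiable (hS.sm _ (ct hu)) (by simp) x).hasFDerivAt
    have a3 : psi X P S u = fun x => rc (X.R + 4) x * (S (fun y => P.φ (u y)) x - 2) + 2 :=
      funext fun x => by rw [psi]; ring
    rw [a3, ((a1.fun_mul (a2.sub_const 2)).add_const 2).fderiv]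
    have b1 := hS.lip _ x _ _ (ct hu) fun y => hP.φb (u y)
    have b2 : Cm * (2 - P.φ₀) / δ ≤ 2 * |Cm| / δ := div_le_div_of_nonneg_right (by
      nlinarith [le_abs_self Cm, abs_nonneg Cm, hP.φ0.1, hP.φ0.2]) d0.le
    have b3 : ‖rc (X.R + 4) x‖ ≤ 1 := by
      rw [Real.norm_of_nonneg (J.rc_mem _ x).1]; exact (J.rc_mem _ x).2
    have b4 : ‖S (fun y => P.φ (u y)) x - 2‖ ≤ 2 := abs_le.2
      ⟨by linarith [s1 x, (hP.φb (u x)).1, hP.φ0.1], by linarith [s2 x]⟩
    have b5 : 2 * c ≤ (2 * c + 1) / δ := by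
      rw [le_div_iff₀ d0]
      nlinarith
    refine (norm_add_le _ _).trans ?_
    rw [norm_smul, norm_smul, add_assoc, add_div]
    exact add_le_add ((mul_le_of_le_one_left (norm_nonneg _) b3).trans (b1.trans b2))
      ((mul_le_mul b4 (hc x) (norm_nonneg _) zero_le_two).trans b5)
  · rw [psi, J.rc_one hr hx, one_mul, sub_self, zero_mul, add_zero]
    refine up x _ fun y k => (phi_mono hP (hy y k)).trans ?_
    have := phi_lip hP (u x + h) (u x)
    rw [add_sub_cancel_left, abs_of_nonneg h0] at this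
    linarith [le_abs_self (P.φ (u x + h) - P.φ (u x))]
  · have e : psi X P S u x - psi X P S u' x =
        rc (X.R + 4) x * (S (fun y => P.φ (u y)) x - S (fun y => P.φ (u' y)) x) := by
      rw [psi, psi]; ring
    rcases le_or_gt (X.R + 4 + 1) ‖x‖ with k | k
    · rw [e, J.rc_zero hr k, zero_mul, abs_zero]
      positivity
    have b1 : ∀ y ∈ ball x (2 * δ), |P.φ (u y) - P.φ (u' y)| ≤ 2 * P.lam * d := fun y k' =>
      (phi_lip hP _ _).trans (mul_le_mul_of_nonneg_left (hy y (by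
        linarith [norm_sub_norm_le y x, mem_ball_iff_norm.1 k'])) (by positivity))
    have b2 := hS.loc _ _ x (2 * P.lam * d) (ct hu) (ct hu') fun y k' => by
      linarith [(abs_le.1 (b1 y k')).2]
    have b3 := hS.loc _ _ x (2 * P.lam * d) (ct hu') (ct hu) fun y k' => by
      linarith [(abs_le.1 (b1 y k')).1]
    rw [e, abs_mul, abs_of_nonneg (J.rc_mem _ x).1]
    exact (mul_le_of_le_one_left (abs_nonneg _) (J.rc_mem _ x).2).trans
      (abs_le.2 ⟨by linarith, by linarith⟩)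

/-- **PSI** -/
theorem psi_ : PSI := fun n X Cm hR => (psi_pos n X Cm hR).imp fun _ h => h.2

end Vale.Agent.P366Y
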