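import Vale.Agent.P366Y.Sk2
import Vale.Agent.P366Y.Asq
import Vale.Agent.P366Y.C.Hi

/-!
# P366Y: the expansion at infinity with a lower bound of the coefficient
-/

open MeasureTheory Metric Filter Topology Set
open scoped ContDiff ENNReal
open Vale.Agent.P366.Stmt Vale.Agent.P366Z

noncomputable section

namespace Vale.Agent.P366Y

theorem ufar : UFAR := by
  intro n X hX
  refine ⟨1 * (X.ρ + 1) ^ (n - 2 : ℝ) + X.β₁, fun u hu lim h0 h => ?_⟩
  obtain ⟨β, h1, h2⟩ := asq hX hu lim h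
  have k := C.HiH.coef wmp hX.dim (R := X.ρ + 1) (by linarith [hX.R1, hX.Rρ]) zero_le_one
    (ContDiff.mul hX.smU hu) (fun x hx => ⟨mul_nonneg (by linarith [(hX.Ub x).1]) (h0 x),
      (lap_mul_zero hX hu (by linarith) (h x hx)).le⟩) h2
  exact ⟨β, h2, h1, by linarith⟩

end Vale.Agent.P366Y
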