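import Vale.Agent.P366Y.Sk3
import Vale.Agent.P366Y.C.All
import Vale.Agent.P366Y.J.Ga
import Vale.Agent.P366Y.J.Alg

/-!
# P366Y, glue: the floor (row FLO)
-/

open MeasureTheory Metric Filter Topology Set
open scoped ContDiff ENNReal
open Vale.Agent.P366.Stmt Vale.Agent.P366Z

noncomputable section

namespace Vale.Agent.P366Y

namespace FloH

variable {n : ℕ}

theorem sum_le {F : Fin n → ℝ} {a : ℝ} (h : ∀ i, |F i| ≤ a) : |∑ i, F i| ≤ n * a := by
  refine (Finset.abs_sum_le_sum_abs _ _).trans ((Finset.sum_le_sum fun i _ => h i).trans ?_)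
  simp

theorem mul_le {a b α β : ℝ} (h : |a| ≤ α) (h' : |b| ≤ β) : |a * b| ≤ α * β := by
  rw [abs_mul]
  exact mul_le_mul h h' (abs_nonneg _) ((abs_nonneg _).trans h)

theorem add_le {a b α β : ℝ} (h : |a| ≤ α) (h' : |b| ≤ β) : |a + b| ≤ α + β :=
  (abs_add_le _ _).trans (add_le_add h h')

theorem sub_le {a b α β : ℝ} (h : |a| ≤ α) (h' : |b| ≤ β) : |a - b| ≤ α + β :=
  (abs_sub _ _).trans (add_le_add h h')

theorem pr2_le {a T : Mx n} {α β : ℝ} (h : ∀ i j, |a i j| ≤ α) (h' : ∀ i j, |T i j| ≤ β) :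
    |pr2 a T| ≤ n * (n * (α * β)) :=
  sum_le fun i => sum_le fun j => mul_le (h i j) (h' i j)

theorem bd {ι : Type} [Fintype ι] (F : ι → E n → ℝ) (h : ∀ i, Continuous (F i)) (ρ : ℝ) :
    ∃ Λ ≥ (1 : ℝ), ∀ i x, ‖x‖ ≤ ρ → F i x ≤ Λ := by
  obtain ⟨C, hC⟩ := (isCompact_closedBall (0 : E n) ρ).exists_bound_of_continuousOn
    (f := fun x i => F i x) (continuous_pi h).continuousOn
  refine ⟨max 1 C, le_max_left _ _, fun i x hx => (le_abs_self _).trans ?_⟩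
  exact ((norm_le_pi_norm (fun i => F i x) i).trans (hC x (by simpa using hx))).trans
    (le_max_right _ _)

theorem gt_eq (g T : Field n) (f : E n → ℝ) (lam : ℝ) (x : E n) :
    C.gt g T f lam x = pr2 (J.am g x (lam / (1 + lam * ip g f f x)) (D1 f x)) (T x) := by
  have e : ∀ i, rs g x (D1 f x) i = gr g f i x := fun _ => rfl
  simp only [C.gt, pr2, J.am, tr, C.b2, e, sub_mul, Finset.sum_sub_distrib]
  rw [mul_div_right_comm, Finset.mul_sum]
  congr 1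
  refine Finset.sum_congr rfl fun i _ => ?_
  rw [Finset.mul_sum]
  exact Finset.sum_congr rfl fun j _ => by ring

theorem jets (g : Field n) {f h : E n → ℝ} {x : E n} (e : h =ᶠ[𝓝 x] f) :
    D1 h x = D1 f x ∧ hess g h x = hess g f x := by
  refine ⟨funext fun i => pd_congr e i, funext fun i => funext fun j => ?_⟩
  simp only [hess, pd_congr e, pd_congr (pd_congr_ev e j)]

theorem hess_mul (g : Field n) {χ f : E n → ℝ} (hχ : Smooth χ) (hf : Smooth f) (x : E n)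
    (i j : Fin n) : hess g (fun y => χ y * f y) x i j = χ x * hess g f x i j +
      (pd i χ x * pd j f x + pd j χ x * pd i f x + f x * hess g χ x i j) := by
  have e : ∀ j, pd j (fun y => χ y * f y) = fun y => pd j χ y * f y + χ y * pd j f y :=
    fun j => funext fun y => pd_mul (hχ.diff y) (hf.diff y) j
  simp only [hess, e]
  rw [pd_add (((hχ.pd j).diff x).fun_mul (hf.diff x)) ((hχ.diff x).fun_mul ((hf.pd j).diff x)),
    pd_mul ((hχ.pd j).diff x) (hf.diff x), pd_mul (hχ.diff x) ((hf.pd j).diff x)]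
  simp only [mul_add, mul_sub, Finset.mul_sum, Finset.sum_add_distrib, mul_left_comm (chr g _ i j x)]
  have : ∑ k, pd k χ x * (chr g k i j x * f x) = ∑ k, f x * (chr g k i j x * pd k χ x) :=
    Finset.sum_congr rfl fun k _ => by ring
  linarith

/-- the gauge dominates the floor -/
theorem gs {P : Pa} {C y t : ℝ} (hP : P.Ok) (hB : P.Big (2 * C)) (C1 : 1 ≤ C)
    (hy : y ∈ Icc P.φ₀ 2) (ht : 0 ≤ t) (h : J.Ga P C y t) :
    P.φ₀ ^ 2 * J.io P y t ≤ P.Gs y t ∧ (t ≤ 1 → P.Gs y t ≤ 4 * P.L) := by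
  obtain ⟨hl, hL, τ0, τ1, -, hM, -⟩ := hP.pos
  obtain ⟨φ0, φ1⟩ := hP.φ0
  obtain ⟨η0, η1⟩ := hP.η0
  obtain ⟨y1, y2⟩ := hy
  have y0 : 0 < y := φ0.trans_le y1
  have L0 : 0 < P.L := by linarith
  have M0 : 0 < P.M₀ ^ 2 := by positivity
  have yy : P.φ₀ ^ 2 ≤ y ^ 2 := by gcongr
  have a1 : 0 < 1 + P.L * y ^ 2 * t := by positivity
  have lo : t ≤ P.M₀ ^ 2 → P.Gs y t = P.L * y ^ 2 / (1 + P.L * y ^ 2 * t) := fun h => by
    have k : 1 ≤ 2 - t / P.M₀ ^ 2 := by linarith [(div_le_one M0).2 h]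
    have k1 : P.th t = 1 := Real.smoothTransition.one_of_one_le k
    have k2 : J.GaH.td P t = 0 := by rw [J.GaH.td, J.GaH.sd_hi k, zero_div]
    rw [Pa.Gs, (J.GaH.der a1.ne' (by positivity)).deriv, J.GaH.F, k1, k2]
    simp
  refine ⟨?_, fun t1 => ?_⟩
  · rcases le_total t (P.M₀ ^ 2) with k | k
    · have e : J.io P y t = 1 / (1 + P.L * y ^ 2 * t) := by
        rw [J.io, lo k]
        field_simp
        ring
      rw [e, lo k, mul_one_div]
      gcongr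
      nlinarith [sq_nonneg y]
    · have t0 : 0 < t := M0.trans_le k
      have i0 : 0 < J.io P y t := lt_of_lt_of_le (by positivity) h.io1
      have b1 : 2 * C ≤ P.L := le_trans (le_mul_of_one_le_right (by linarith) hl) hB.b1
      have b3 : 2 * C ≤ P.L * y ^ 2 * t := by
        refine (le_mul_of_one_le_right (by linarith) hL).trans (hB.b3.trans ?_)
        calc P.η * P.τ * P.φ₀ ^ 4 * P.M₀ ≤ 1 * P.L * P.φ₀ ^ 2 * P.M₀ ^ 2 := by
              have e1 : P.φ₀ ^ 4 ≤ P.φ₀ ^ 2 := pow_le_pow_of_le_one φ0.le φ1 (by norm_num)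
              have e2 : P.M₀ ≤ P.M₀ ^ 2 := le_self_pow₀ hM two_ne_zero
              have e3 : P.η ≤ 1 := by linarith only [η1]
              have e4 := τ1.trans hL
              exact mul_le_mul (mul_le_mul (by gcongr) e1 (by positivity) (by positivity)) e2
                (by positivity) (by positivity)
          _ ≤ P.L * y ^ 2 * t := by rw [one_mul]; gcongr
      have b4 : 2 * C * P.φ₀ ^ 2 * t ≤ P.L * y ^ 2 * t := by gcongr
      have b5 : J.io P y t * (C * (1 + P.φ₀ ^ 2 * t)) ≤ C :=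
        le_trans (mul_le_mul_of_nonneg_left (by linarith) i0.le) h.io2
      have b6 : J.io P y t * (1 + P.φ₀ ^ 2 * t) ≤ 1 :=
        le_of_mul_le_mul_left (a := C) (by linarith) (by linarith)
      refine le_of_mul_le_mul_left (a := t) ?_ t0
      have : t * P.Gs y t = 1 - J.io P y t := by rw [J.io]; ring
      linarith
  · rw [lo (t1.trans (one_le_pow₀ hM))]
    refine (div_le_self (by positivity) (by nlinarith [mul_nonneg (mul_pos L0 (pow_pos y0 2)).le ht])).trans ?_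
    nlinarith [mul_le_mul_of_nonneg_left (show y ^ 2 ≤ 4 by nlinarith) L0.le]

/-- the right hand side of the gauge is bounded -/
theorem rhs {X : Dat n} {P : Pa} (hX : X.Ok) (hP : P.Ok) (fo : P.For X) {c s z : ℝ} {x : E n}
    {p : Vc n} (c0 : 0 ≤ c) (c1 : c * sq X.g x p ≤ 1) (hz : |z| ≤ 8 * P.F₀) :
    |pr2 (J.am X.g x c p) (X.K x) + cap X P s x z| ≤ 3 * P.CK + 2 * X.p₀ := by
  have k0 : 0 ≤ P.CK := by linarith [hP.pos.2.2.2.2.2.2.2.2]
  have k1 := ((J.alg n X.g x c p (J.mg hX) c0 c1).2.2.2.2.2 X.K (hX.syK x)).1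
  have k2 := abs_le_of_sq_le_sq (k1.trans (fo.2 x)) k0
  obtain ⟨r0, r1⟩ := J.rc_mem (X.R + 3) x
  obtain ⟨p0, hp⟩ := hX.pb x
  have p1 := hP.pos.2.2.2.2.2.2.1
  have k3 : |rc (X.R + 3) x * X.p x + (1 - rc (X.R + 3) x) * P.p₁| ≤ X.p₀ := by
    rw [abs_of_nonneg (add_nonneg (mul_nonneg r0 p0) (mul_nonneg (by linarith) p1.le))]
    nlinarith [mul_le_mul_of_nonneg_left hp r0, mul_le_mul_of_nonneg_left fo.1 (sub_nonneg.2 r1)]
  have k4 : |Real.arctan (z / s)| ≤ 2 := abs_le.2 ⟨by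
    linarith [Real.neg_pi_div_two_lt_arctan (z / s), Real.pi_le_four],
    by linarith [Real.arctan_lt_pi_div_two (z / s), Real.pi_le_four]⟩
  have k5 := add_le k2 (add_le (hP.Tb z hz) (mul_le k3 k4))
  rw [cap]
  linarith

/-- the trace of the Hessian after the cut -/
theorem cut {g : Field n} {χ f : E n → ℝ} (hχ : Smooth χ) (hf : Smooth f) {x : E n}
    {Λ a H G G' c D : ℝ} (Λ0 : 0 ≤ Λ) (hu : ∀ i j, |up g i j x| ≤ Λ)
    (hc : ∀ k i j, |chr g k i j x| ≤ Λ) (h0 : |χ x| ≤ 1) (h1 : ∀ i, |pd i χ x| ≤ Λ)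
    (h2 : ∀ i j, |hess g χ x i j| ≤ Λ) (f0 : |f x| ≤ a) (f1 : ∀ i, |pd i f x| ≤ a)
    (f2 : ∀ i j, |pd i (pd j f) x| ≤ H) (hG : |G| ≤ G') (c1 : |c| ≤ 1)
    (hD : |pr2 (J.am g x G (D1 f x)) (hess g f x)| ≤ D) :
    |pr2 (J.am g x c (D1 (fun y => χ y * f y) x)) (hess g (fun y => χ y * f y) x)| ≤
      D + n ^ 2 * (G' + 1) * (n * Λ * (Λ + 1)) ^ 2 * (a ^ 2 * H + n * Λ * a ^ 3) +
        n ^ 2 * (Λ + (n * Λ * (Λ + 1)) ^ 2 * a ^ 2) * (3 * Λ * a) := by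
  have a0 : 0 ≤ a := (abs_nonneg _).trans f0
  have p1 : ∀ i, |D1 (fun y => χ y * f y) x i| ≤ Λ * a + 1 * a := fun i => by
    rw [D1, pd_mul (hχ.diff x) (hf.diff x)]
    exact add_le (mul_le (h1 i) f0) (mul_le h0 (f1 i))
  have p2 : ∀ i, |D1 f x i| ≤ Λ * a + 1 * a := fun i =>
    (f1 i).trans (by linarith [mul_nonneg Λ0 a0])
  have q : ∀ p : Vc n, (∀ i, |p i| ≤ Λ * a + 1 * a) → ∀ i,
      |rs g x p i| ≤ n * (Λ * (Λ * a + 1 * a)) := fun p hp i => sum_le fun j => mul_le (hu i j) (hp j)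
  generalize D1 (fun y => χ y * f y) x = p at p1
  have e : pr2 (J.am g x c p) (hess g (fun y => χ y * f y) x) =
      χ x * (pr2 (J.am g x G (D1 f x)) (hess g f x) + pr2 (fun i j =>
        G * rs g x (D1 f x) i * rs g x (D1 f x) j - c * rs g x p i * rs g x p j) (hess g f x)) +
      pr2 (J.am g x c p) fun i j =>
        pd i χ x * pd j f x + pd j χ x * pd i f x + f x * hess g χ x i j := by
    simp only [pr2, J.am, hess_mul g hχ hf, Finset.mul_sum, ← Finset.sum_add_distrib]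
    exact Finset.sum_congr rfl fun i _ => Finset.sum_congr rfl fun j _ => by ring
  have k1 := pr2_le (fun i j => sub_le (mul_le (mul_le hG (q _ p2 i)) (q _ p2 j))
    (mul_le (mul_le c1 (q _ p1 i)) (q _ p1 j))) (T := hess g f x)
    fun i j => sub_le (f2 i j) (sum_le fun k => mul_le (hc k i j) (f1 k))
  have k2 := pr2_le (a := J.am g x c p)
    (fun i j => sub_le (hu i j) (mul_le (mul_le c1 (q _ p1 i)) (q _ p1 j)))
    fun i j => add_le (add_le (mul_le (h1 i) (f1 j)) (mul_le (h1 j) (f1 i))) (mul_le f0 (h2 i j))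
  rw [e]
  exact (add_le (mul_le h0 (add_le hD k1)) k2).trans (le_of_eq (by ring))

theorem io0 {P : Pa} {C y t : ℝ} (hP : P.Ok) (ht : 0 ≤ t) (h : J.Ga P C y t) : 0 < J.io P y t := by
  have := hP.pos.2.1
  exact lt_of_lt_of_le (by positivity) h.io1

/-- the equation of the gauge bounds the trace -/
theorem eq1 {X : Dat n} {P : Pa} {M θ K₀ ε A K C : ℝ} {ψ f : E n → ℝ} {x : E n} (hX : X.Ok)
    (hP : P.Ok) (fo : P.For X) (hf : J.Jk X P M θ K₀ ε A K ψ f)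
    (ga : J.Ga P C (ψ x) (ip X.g f f x)) (h : ‖x‖ ≤ X.R + 7) :
    |pr2 (J.am X.g x (P.Gs (ψ x) (ip X.g f f x)) (D1 f x)) (hess X.g f x)| ≤
      P.om (ψ x) (ip X.g f f x) * (3 * P.CK + 2 * X.p₀) := by
  have e := hf.eqn x h
  rw [J.ag_eq, J.rc_one (by linarith [hX.R1]) h, one_mul] at e
  change pr2 (J.am X.g x (P.Gs (ψ x) (ip X.g f f x)) (D1 f x)) (hess X.g f x) = _ *
    (pr2 (J.am X.g x (P.Gs (ψ x) (ip X.g f f x)) (D1 f x)) _ + _) at e
  rw [e, abs_mul, abs_of_pos ga.om0]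
  refine mul_le_mul_of_nonneg_left (rhs hX hP fo ga.Gs0 ?_ (hf.sup x)) ga.om0.le
  have := io0 hP ((J.mg hX).ip_nonneg f x) ga
  rw [J.io] at this
  change _ * ip X.g f f x ≤ 1
  linarith

/-- the zone of the cut -/
theorem zone2 {X : Dat n} (hX : X.Ok) {P : Pa} {C : ℝ} (hP : P.Ok) (fo : P.For X) (C1 : 1 ≤ C)
    (big : P.Big (2 * C)) (hGa : ∀ y ∈ Icc P.φ₀ 2, ∀ t ≥ (0 : ℝ), J.Ga P C y t) (M θ K₀ : ℝ) :
    ∃ ε > (0 : ℝ), ∀ ε' ≤ ε, ∀ A ≥ (1 : ℝ), ∀ K ψ f, Ps X P A ψ → J.Jk X P M θ K₀ ε' A K ψ f →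
      ∀ x, X.R + 5 ≤ ‖x‖ → ‖x‖ ≤ X.R + 6 → ∀ c : ℝ, |c| ≤ 1 →
        |pr2 (J.am X.g x c (D1 (fh X f) x)) (hess X.g (fh X f) x)| ≤
          2 * (3 * P.CK + 2 * X.p₀) + 1 := by
  have hg := J.mg hX
  have sχ : Smooth (rc (X.R + 5) : E n → ℝ) := J.sm_rc _
  obtain ⟨Λ, Λ1, hΛ⟩ := bd (fun (q : Fin n × Fin n × Fin n) x => |up X.g q.2.1 q.2.2 x| +
    |chr X.g q.1 q.2.1 q.2.2 x| + |pd q.2.1 (rc (X.R + 5)) x| +
      |hess X.g (rc (X.R + 5)) x q.2.1 q.2.2|) (fun q => (((hg.sm_up _ _).cont.abs.add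
        (hg.sm_chr _ _ _).cont.abs).add (sχ.pd _).cont.abs).add (hg.sm_hess sχ _ _).cont.abs)
          (X.R + 6)
  have hc : Continuous fun e : ℝ => (n : ℝ) ^ 2 * (4 * P.L + 1) * (n * Λ * (Λ + 1)) ^ 2 *
      (e ^ 2 * K₀ + n * Λ * e ^ 3) + n ^ 2 * (Λ + (n * Λ * (Λ + 1)) ^ 2 * e ^ 2) * (3 * Λ * e) +
      n * (n * (Λ * e * e)) := by fun_prop
  obtain ⟨ε, hε, ε0⟩ := (((hc.continuousAt (x := 0)).eventually_lt
    (continuousAt_const (y := (1 : ℝ))) (by simp)).filter_mono nhdsWithin_le_nhds |>.and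
      (self_mem_nhdsWithin (s := Ioi (0 : ℝ)))).exists
  replace ε0 : 0 < ε := ε0
  refine ⟨ε, ε0, fun ε' hε' A A1 K ψ f hψ hf x h5 hx c c1 => ?_⟩
  have L1 := hP.pos.2.1
  have D0 : 0 ≤ 3 * P.CK + 2 * X.p₀ := by linarith only [hP.pos.2.2.2.2.2.2.2.2, hX.p0]
  obtain ⟨y1, y2⟩ := hf.tiny x (by linarith only [h5]) hx
  have A0 : 0 < A ^ 2 := by positivity
  have A2 : 1 ≤ A ^ 2 := one_le_pow₀ A1
  have f0 : |f x| ≤ ε / A ^ 2 := (le_div_iff₀' A0).2 (y1.trans hε')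
  have f1 : ∀ i, |pd i f x| ≤ ε / A ^ 2 := fun i =>
    (norm_le_pi_norm (D1 f x) i).trans ((le_div_iff₀' A0).2 (y2.trans hε'))
  have f2 : ∀ i j, |pd i (pd j f) x| ≤ K₀ * A := fun i j =>
    (norm_le_pi_norm (D2 f x i) j).trans ((norm_le_pi_norm (D2 f x) i).trans (hf.d2 x))
  have K0 : 0 ≤ K₀ :=
    nonneg_of_mul_nonneg_left ((norm_nonneg _).trans (hf.d2 x)) (by linarith only [A1])
  have a0 : 0 ≤ ε / A ^ 2 := (abs_nonneg _).trans f0
  have a1 : ε / A ^ 2 ≤ ε := div_le_self ε0.le A2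
  have a2 : (ε / A ^ 2) ^ 2 * (K₀ * A) ≤ ε ^ 2 * K₀ := by
    rw [div_pow, div_mul_eq_mul_div, div_le_iff₀ (by positivity), mul_assoc]
    gcongr
    nlinarith only [A1, A2]
  generalize ε / A ^ 2 = a at *
  have hu : ∀ i j, |up X.g i j x| ≤ Λ := fun i j => le_trans (by
    simp only [add_assoc]; exact le_add_of_nonneg_right (by positivity)) (hΛ (i, i, j) x hx)
  have tf := hg.ip_nonneg f x
  have ga := hGa _ (hψ.bd x) _ tf
  have t1 : ip X.g f f x ≤ n * (n * (Λ * ε * ε)) := (le_abs_self _).trans (sum_le fun i =>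
    sum_le fun j => mul_le (mul_le (hu i j) ((f1 i).trans a1)) ((f1 j).trans a1))
  have s1 : 0 ≤ (n : ℝ) ^ 2 * (4 * P.L + 1) * (n * Λ * (Λ + 1)) ^ 2 *
    (ε ^ 2 * K₀ + n * Λ * ε ^ 3) + n ^ 2 * (Λ + (n * Λ * (Λ + 1)) ^ 2 * ε ^ 2) * (3 * Λ * ε) := by
    positivity
  have t2 : ip X.g f f x ≤ 1 := by linarith only [t1, s1, hε]
  have o1 : P.om (ψ x) (ip X.g f f x) ≤ 2 := by
    have k := ga.om2
    rw [hψ.two x h5] at k ⊢
    exact le_of_abs_le (abs_le_of_sq_le_sq (by linarith only [k, t2]) zero_le_two)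
  have k := cut sχ hf.sm (by positivity) hu (fun k i j => le_trans (le_add_of_le_of_nonneg
      (le_add_of_le_of_nonneg (le_add_of_nonneg_left (abs_nonneg _)) (abs_nonneg _))
        (abs_nonneg _)) (hΛ (k, i, j) x hx))
    (by rw [abs_of_nonneg (J.rc_mem _ _).1]; exact (J.rc_mem _ _).2)
    (fun i => le_trans (le_add_of_le_of_nonneg (le_add_of_nonneg_left (by positivity))
      (abs_nonneg _)) (hΛ (i, i, i) x hx))
    (fun i j => le_trans (le_add_of_nonneg_left (by positivity)) (hΛ (i, i, j) x hx)) f0 f1 f2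
    (G' := 4 * P.L) (by
      rw [abs_of_nonneg ga.Gs0]
      exact (gs hP big C1 (hψ.bd x) tf ga).2 t2) c1
    ((eq1 hX hP fo hf ga (by linarith only [hx])).trans (mul_le_mul_of_nonneg_right o1 D0))
  refine k.trans ?_
  have s2 : (n : ℝ) ^ 2 * (4 * P.L + 1) * (n * Λ * (Λ + 1)) ^ 2 *
      (a ^ 2 * (K₀ * A) + n * Λ * a ^ 3) + n ^ 2 * (Λ + (n * Λ * (Λ + 1)) ^ 2 * a ^ 2) *
        (3 * Λ * a) ≤ (n : ℝ) ^ 2 * (4 * P.L + 1) * (n * Λ * (Λ + 1)) ^ 2 *
    (ε ^ 2 * K₀ + n * Λ * ε ^ 3) + n ^ 2 * (Λ + (n * Λ * (Λ + 1)) ^ 2 * ε ^ 2) * (3 * Λ * ε) := by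
    gcongr
  linarith only [s2, hε, t1, tf]

/-- the zone of the gauge -/
theorem zone1 {φ y t G ι o T D : ℝ} (φ0 : 0 < φ) (hy : φ ≤ y) (t0 : 0 ≤ t) (i0 : 0 < ι)
    (e : ι = 1 - t * G) (ho : o ^ 2 ≤ 1 / y ^ 2 + t) (hT : |T| ≤ o * D) :
    G / ι / (1 + G / ι * t) = G ∧ (1 + G / ι * t) / (1 + φ ^ 2 * t) *
      (φ ^ 2 * T ^ 2 / (1 + φ ^ 2 * t)) ≤ D ^ 2 * ((1 - G * t) * (1 + φ ^ 2 * t))⁻¹ := by
  have w0 : 0 < 1 + φ ^ 2 * t := by positivity
  have e3 : 1 + G / ι * t = 1 / ι := by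
    field_simp
    linarith
  rw [e3, div_div_div_cancel_right₀ i0.ne', div_one, div_div, one_div, mul_comm G, ← e, mul_comm]
  refine ⟨rfl, mul_le_mul_of_nonneg_right ((div_le_iff₀ w0).2 ?_) (by positivity)⟩
  have k1 := sq_le_sq' (abs_le.1 hT).1 (abs_le.1 hT).2
  have k2 : φ ^ 2 * (1 / y ^ 2) ≤ 1 := by
    have := φ0.trans_le hy
    rw [mul_one_div, div_le_one (by positivity)]
    gcongr
  have k3 : φ ^ 2 * o ^ 2 ≤ 1 + φ ^ 2 * t := by
    linarith [mul_le_mul_of_nonneg_left ho (sq_nonneg φ)]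
  linarith [mul_le_mul_of_nonneg_left k1 (sq_nonneg φ), mul_le_mul_of_nonneg_right k3 (sq_nonneg D)]

/-- the curvature at the floor -/
theorem base {g : Field n} (hg : Met g) (ρ : ℝ) : ∃ B ≥ (1 : ℝ), ∀ (v h : E n → ℝ) (x : E n)
    (lam : ℝ), Smooth v → Smooth h → (∀ y, 0 < v y) → IsLocalMin v x → ‖x‖ ≤ ρ → v x ^ 2 ≤ lam →
    |scal g x| ≤ B ∧ scal (gb g v h) x ≤ scal g x + 2 * B + (1 + lam * ip g h h x) /
      (1 + v x ^ 2 * ip g h h x) * (v x ^ 2 * pr2 (J.am g x (lam / (1 + lam * ip g h h x))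
        (D1 h x)) (hess g h x) ^ 2 / (1 + v x ^ 2 * ip g h h x)) := by
  have sr := (C.rci n g (fun _ => 0) hg contDiff_const).1
  obtain ⟨B, B1, hB⟩ := bd (fun (_ : Unit) x => |scal g x| + normSq g (C.rc g) x)
    (fun _ => hg.sm_scal.cont.abs.add (continuous_finsetSum _ fun i _ =>
      continuous_finsetSum _ fun j _ => continuous_finsetSum _ fun k _ =>
        continuous_finsetSum _ fun l _ => (((hg.sm_up i k).cont.mul (hg.sm_up j l).cont).mul
          (sr.sm i j).cont).mul (sr.sm k l).cont)) ρ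
  refine ⟨B, B1, fun v h x lam sv sh v0 hm hx hl => ?_⟩
  have t0 := hg.ip_nonneg h x
  obtain ⟨N0, -, -, o1, o2, -⟩ := C.orth n g (C.rc g) h h x hg (sr.sy x)
  have b1 := hB () x hx
  have ric : -(B * ip g h h x) ≤ C.b2 g (C.rc g) h h x := by
    refine neg_le_of_abs_le (abs_le_of_sq_le_sq (o2.trans ?_) (by positivity))
    have : normSq g (C.rc g) x ≤ B ^ 2 := by nlinarith only [abs_nonneg (scal g x), b1, B1]
    linarith [mul_le_mul_of_nonneg_right o1 t0, mul_le_mul_of_nonneg_right this (mul_nonneg t0 t0)]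
  have k1 := C.flp n g v h x lam B hg sv sh (v0 x) hm hl (by linarith) ric
  rw [← C.rb_ n g _ _ hg sv sh v0, mul_pow, div_pow,
    ((C.gb_ n g _ _ hg sv sh).2.2.2 x).2.1, gt_eq, div_mul_eq_mul_div _ _ (_ ^ 2)] at k1
  exact ⟨by linarith, k1⟩

end FloH

open FloH in
/-- **row FLO** -/
theorem flo2 : FLO := by
  intro n X CK hX
  have hg := J.mg hX
  have R1 := hX.R1
  have Rρ := hX.Rρ
  obtain ⟨Cg, C1, hGa⟩ := J.ga
  obtain ⟨B, B1, hB⟩ := base hg X.ρ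
  refine ⟨3 * B + (2 * (3 * CK + 2 * X.p₀) + 1) ^ 2 + 1, by positivity, 2 * Cg,
    fun P ⟨hP, fo, ck, big⟩ M θ K₀ => ?_⟩
  replace hGa := hGa P hP (J.big_mono hP big (by linarith))
  obtain ⟨ε, ε0, hε⟩ := zone2 hX hP fo C1 big hGa M θ K₀
  refine ⟨ε, ε0, fun ε' hε' A A1 K ψ f hψ hf c cY σ0 um u hu x hx hm hz => ?_⟩
  subst ck
  obtain ⟨φ0, φ1⟩ := hP.φ0
  have η0 := hP.η0.1
  have D0 : 0 ≤ 3 * P.CK + 2 * X.p₀ := by linarith only [hP.pos.2.2.2.2.2.2.2.2, hX.p0]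
  have sh : Smooth (fh X f) := ContDiff.mul (J.sm_rc _) hf.sm
  have vx : P.φ (u x) = P.φ₀ := hP.φlo _ (by linarith)
  have t0 := hg.ip_nonneg (fh X f) x
  have w0 : 0 < 1 + P.φ₀ ^ 2 * ip X.g (fh X f) (fh X f) x := by positivity
  have ga := hGa _ (hψ.bd x) _ t0
  have i0 := io0 hP t0 ga
  obtain ⟨r0, r1⟩ := J.rc_mem (X.R + 7) x
  have main := fun lam (hl : P.φ₀ ^ 2 ≤ lam) => hB (fun y => P.φ (u y)) (fh X f) x lam
    (hP.smφ.comp hu) sh (fun y => φ0.trans_le (hP.φb _).1)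
    (.of_forall fun y => by simp only [vx]; exact (hP.φb _).1) hx (by rw [vx]; exact hl)
  simp only [vx] at main
  have k3 : rc (X.R + 7) x * scal X.g x ≤ 1 * B :=
    (le_abs_self _).trans (mul_le (by rwa [abs_of_nonneg r0]) (main _ le_rfl).1)
  have iv : 0 ≤ ((1 - rc (X.R + 7) x * P.Gs (ψ x) (ip X.g (fh X f) (fh X f) x) *
      ip X.g (fh X f) (fh X f) x) *
        (1 + (rc (X.R + 6) x * P.φ₀) ^ 2 * ip X.g (fh X f) (fh X f) x))⁻¹ := by
    rw [J.io] at i0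
    refine inv_nonneg.2 (mul_nonneg ?_ (by positivity))
    linarith only [mul_nonneg (sub_nonneg.2 r1) (mul_nonneg ga.Gs0 t0), i0]
  suffices scal (gb X.g (fun y => P.φ (u y)) (fh X f)) x ≤
      scal X.g x + flo X P c.cY ψ (fh X f) x - B - 1 by
    rw [Lam, hP.β1 _ hz.le, J.rc_one (by linarith) hx,
      Real.smoothTransition.zero_of_nonpos (x := u x - c.um) (by linarith)]
    linarith only [this, k3, mul_nonneg r0 σ0]
  rw [flo, mul_add, mul_one]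
  have out : |pr2 (J.am X.g x (P.φ₀ ^ 2 / (1 + P.φ₀ ^ 2 * ip X.g (fh X f) (fh X f) x))
      (D1 (fh X f) x)) (hess X.g (fh X f) x)| ≤ 2 * (3 * P.CK + 2 * X.p₀) + 1 →
      scal (gb X.g (fun y => P.φ (u y)) (fh X f)) x ≤ scal X.g x + c.cY - B - 1 := fun h => by
    have k0 := (main _ le_rfl).2
    have k1 := sq_le_sq' (abs_le.1 h).1 (abs_le.1 h).2
    rw [div_self w0.ne', one_mul] at k0
    have k2 := (div_le_self (mul_nonneg (sq_nonneg P.φ₀) (sq_nonneg _)) (le_add_of_nonneg_right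
      (mul_nonneg (sq_nonneg P.φ₀) t0))).trans
        ((mul_le_of_le_one_left (sq_nonneg _) (pow_le_one₀ φ0.le φ1)).trans k1)
    linarith only [k0, k2, cY]
  have k4 := mul_nonneg (show 0 ≤ c.cY by rw [cY]; positivity) iv
  rcases lt_or_ge ‖x‖ (X.R + 5) with h5 | h5
  · have e : fh X f =ᶠ[𝓝 x] f := by
      filter_upwards [continuous_norm.continuousAt.eventually_lt continuousAt_const h5] with y hy
      rw [fh, J.rc_one (by linarith) hy.le, one_mul]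
    have e1 := eq1 hX hP fo hf (ip_congr (g := X.g) e e ▸ ga) (by linarith)
    rw [← ip_congr e e, ← (jets X.g e).1, ← (jets X.g e).2] at e1
    have k0 := (main _ ((le_div_iff₀ i0).2 (gs hP big C1 (hψ.bd x) t0 ga).1)).2
    obtain ⟨k1, k2⟩ := zone1 φ0 (hψ.bd x).1 t0 i0 rfl ga.om2 e1
    rw [k1] at k0
    rw [J.rc_one (by linarith) (show ‖x‖ ≤ X.R + 7 by linarith),
      J.rc_one (by linarith) (show ‖x‖ ≤ X.R + 6 by linarith), one_mul, one_mul] at iv ⊢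
    have k5 : (3 * P.CK + 2 * X.p₀) ^ 2 ≤ c.cY := by nlinarith only [cY, D0, B1]
    linarith only [k0, k2, mul_le_mul_of_nonneg_right k5 iv, cY,
      sq_nonneg (2 * (3 * P.CK + 2 * X.p₀) + 1)]
  rcases le_or_gt ‖x‖ (X.R + 6) with h6 | h6
  · refine (out (hε ε' hε' A A1 K ψ f hψ hf x h5 h6 _ ?_)).trans (by linarith only [k4])
    rw [abs_of_nonneg (by positivity), div_le_one w0]
    linarith only [mul_nonneg (sq_nonneg P.φ₀) t0, pow_le_one₀ (n := 2) φ0.le φ1]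
  · refine (out ?_).trans (by linarith only [k4])
    have e : fh X f =ᶠ[𝓝 x] fun _ => 0 := by
      filter_upwards [continuousAt_const.eventually_lt continuous_norm.continuousAt h6] with y hy
      rw [fh, J.rc_zero (by linarith) (by linarith), zero_mul]
    have e1 : hess X.g (fun _ => (0 : ℝ)) x = 0 := by
      funext i j
      simp [hess, pd_const, show pd j (fun _ : E n => (0 : ℝ)) = fun _ => 0 from
        funext (pd_const 0 j)]
    rw [(jets X.g e).2, e1]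
    simp only [pr2, Pi.zero_apply, mul_zero, Finset.sum_const_zero, abs_zero]
    linarith only [D0]

end Vale.Agent.P366Y
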